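import Vale.Agent.P141.H769.Mom
import Vale.Agent.P141.H922.PairW
import Mathlib.Data.Int.Log

/-!
# P141, scale-invariant version: the fourth Schatten moment of gauged slices, all gauges

If `mo4 A B C a G ≤ k h (avg a²)^(3/2)` for every gauge `|a| ≤ h` on `A × B`, then
`mo4 A B C a G ≤ 480 k |a|₂² |a|₄²` for every gauge (`mo4_pair`).  The fourth root of `mo4` is
subadditive in the gauge (`mo4_sum_le`), and the levels `16 ^ j θ < |a| ≤ 16 ^ (j+1) θ`,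
`θ = |a|₄² / |a|₂`, give a series which is geometric on both sides.
-/

namespace Vale.Agent.P141.H573

open Finset
open Vale.Agent.P141.PL.H315 (avg avg_nonneg)
open Vale.Agent.P141.H550 Vale.Agent.P141.H769 Vale.Agent.P141.H922

noncomputable section

variable {X : Type*}

theorem n2_add_le (Q : Finset X) (f g : X → ℝ) :
    n2 Q (fun x => f x + g x) ≤ n2 Q f + n2 Q g := by
  have h1 := n2_nonneg Q f
  have h2 := n2_nonneg Q g
  have h3 : (avg Q fun x => f x * g x) ≤ n2 Q f * n2 Q g := avg_mul_le_sqrt Q f g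
  refine Real.sqrt_le_iff.2 ⟨by positivity, ?_⟩
  have e1 : (avg Q fun x => (f x + g x) ^ 2) =
      n2 Q f ^ 2 + (2 * (avg Q fun x => f x * g x) + n2 Q g ^ 2) := by
    rw [n2_sq, n2_sq, ← avg_mul_left, ← avg_add, ← avg_add]
    exact avg_congr fun x _ => by ring
  rw [e1]
  nlinarith

theorem n2_zero (Q : Finset X) : n2 Q (fun _ => 0) = 0 := by
  unfold n2 avg; simp

theorem n2_congr {Q : Finset X} {f g : X → ℝ} (h : ∀ x ∈ Q, f x = g x) : n2 Q f = n2 Q g := by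
  unfold n2
  rw [avg_congr fun x hx => by rw [h x hx]]

theorem n2_sum_le {ι : Type*} (s : Finset ι) (Q : Finset X) (f : ι → X → ℝ) :
    n2 Q (fun x => ∑ i ∈ s, f i x) ≤ ∑ i ∈ s, n2 Q (f i) := by
  classical
  induction s using Finset.induction_on with
  | empty => simp [n2_zero]
  | insert i s hi ih =>
    rw [sum_insert hi, n2_congr (g := fun x => f i x + ∑ j ∈ s, f j x) fun x _ => by
      rw [sum_insert hi]]
    exact (n2_add_le Q _ _).trans (by linarith)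

/-- the cross Gram matrices of two gauges -/
def cr (B : Finset ℤ) (G : ℤ × ℤ × ℤ → ℝ) (a b : ℤ → ℤ → ℝ) (q : ℤ × ℤ × ℤ) : ℝ :=
  avg B fun y => sl a G q.1 q.2.1 y * sl b G q.1 q.2.2 y

theorem mo4_eq (A B C : Finset ℤ) (a : ℤ → ℤ → ℝ) (G : ℤ × ℤ × ℤ → ℝ) :
    mo4 A B C a G = n2 (C ×ˢ A ×ˢ A) (cr B G a a) ^ 2 := by
  rw [n2_sq, avg_prod]
  refine avg_congr fun z _ => ?_
  rw [avg_prod]
  rfl

/-- the column Gram matrices of one gauge -/
def cl (A : Finset ℤ) (G : ℤ × ℤ × ℤ → ℝ) (a : ℤ → ℤ → ℝ) (q : ℤ × ℤ × ℤ) : ℝ :=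
  avg A fun x => sl a G q.1 x q.2.1 * sl a G q.1 x q.2.2

theorem swap4 (A B : Finset ℤ) (F : ℤ → ℤ → ℤ → ℤ → ℝ) :
    (avg A fun x => avg A fun c => avg B fun y => avg B fun y' => F x c y y') =
      avg B fun y => avg B fun y' => avg A fun x => avg A fun c => F x c y y' := by
  have e1 : (avg A fun x => avg A fun c => avg B fun y => avg B fun y' => F x c y y') =
      avg A fun x => avg B fun y => avg A fun c => avg B fun y' => F x c y y' :=
    avg_congr fun x _ => avg_comm A B _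
  rw [e1, avg_comm A B]
  refine avg_congr fun y _ => ?_
  have e2 : (avg A fun x => avg A fun c => avg B fun y' => F x c y y') =
      avg A fun x => avg B fun y' => avg A fun c => F x c y y' :=
    avg_congr fun x _ => avg_comm A B _
  rw [e2, avg_comm A B]

theorem cross_swap (A B : Finset ℤ) (u v : ℤ → ℤ → ℝ) :
    (avg A fun x => avg A fun c => (avg B fun y => u x y * v c y) ^ 2) =
      avg B fun y => avg B fun y' => (avg A fun x => u x y * u x y') *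
        avg A fun c => v c y * v c y' := by
  have e1 : (avg A fun x => avg A fun c => (avg B fun y => u x y * v c y) ^ 2) =
      avg A fun x => avg A fun c => avg B fun y => avg B fun y' =>
        (u x y * v c y) * (u x y' * v c y') := by
    refine avg_congr fun x _ => avg_congr fun c _ => ?_
    rw [sq, ← avg_mul_right]
    exact avg_congr fun y _ => (avg_mul_left _ _ _).symm
  rw [e1, swap4]
  refine avg_congr fun y _ => avg_congr fun y' _ => ?_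
  rw [← avg_mul_right]
  refine avg_congr fun x _ => ?_
  rw [← avg_mul_left]
  exact avg_congr fun c _ => by ring

/-- `|M Nᵀ|² = ⟨Mᵀ M, Nᵀ N⟩`, averaged over `z`, and Cauchy–Schwarz. -/
theorem cr_sq_le (A B C : Finset ℤ) (G : ℤ × ℤ × ℤ → ℝ) (a b : ℤ → ℤ → ℝ) :
    n2 (C ×ˢ A ×ˢ A) (cr B G a b) ^ 2 ≤
      n2 (C ×ˢ A ×ˢ A) (cr B G a a) * n2 (C ×ˢ A ×ˢ A) (cr B G b b) := by
  have key : ∀ a b : ℤ → ℤ → ℝ, n2 (C ×ˢ A ×ˢ A) (cr B G a b) ^ 2 =
      avg (C ×ˢ B ×ˢ B) fun q => cl A G a q * cl A G b q := by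
    intro a b
    rw [n2_sq, avg_prod, avg_prod]
    refine avg_congr fun z _ => ?_
    rw [avg_prod, avg_prod]
    exact cross_swap A B (sl a G z) (sl b G z)
  have k2 : ∀ a : ℤ → ℤ → ℝ, n2 (C ×ˢ A ×ˢ A) (cr B G a a) = n2 (C ×ˢ B ×ˢ B) (cl A G a) := by
    intro a
    have h1 : n2 (C ×ˢ A ×ˢ A) (cr B G a a) ^ 2 = n2 (C ×ˢ B ×ˢ B) (cl A G a) ^ 2 := by
      rw [key a a, n2_sq]
      exact avg_congr fun q _ => by ring
    exact (pow_left_inj₀ (n2_nonneg _ _) (n2_nonneg _ _) two_ne_zero).1 h1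
  rw [key a b, k2 a, k2 b]
  exact avg_mul_le_sqrt _ _ _

/-- **The fourth root of `mo4` is subadditive in the gauge.** -/
theorem mo4_sum_le {ι : Type*} (s : Finset ι) (A B C : Finset ℤ) (G : ℤ × ℤ × ℤ → ℝ)
    (a : ℤ → ℤ → ℝ) (b : ι → ℤ → ℤ → ℝ)
    (hab : ∀ x ∈ A, ∀ y ∈ B, a x y = ∑ i ∈ s, b i x y) :
    √√(mo4 A B C a G) ≤ ∑ i ∈ s, √√(mo4 A B C (b i) G) := by
  set Q := C ×ˢ A ×ˢ A with hQ
  have hr : ∀ a : ℤ → ℤ → ℝ, √(mo4 A B C a G) = n2 Q (cr B G a a) := fun a => by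
    rw [mo4_eq, Real.sqrt_sq (n2_nonneg _ _)]
  have h0 : 0 ≤ ∑ i ∈ s, √√(mo4 A B C (b i) G) := sum_nonneg fun _ _ => Real.sqrt_nonneg _
  refine Real.sqrt_le_iff.2 ⟨h0, ?_⟩
  rw [hr a]
  have h1 : n2 Q (cr B G a a) = n2 Q fun q => ∑ i ∈ s, ∑ j ∈ s, cr B G (b i) (b j) q := by
    refine n2_congr fun q hq => ?_
    rw [hQ, mem_product, mem_product] at hq
    unfold cr
    have e1 : ∀ y ∈ B, sl a G q.1 q.2.1 y * sl a G q.1 q.2.2 y =
        ∑ i ∈ s, ∑ j ∈ s, sl (b i) G q.1 q.2.1 y * sl (b j) G q.1 q.2.2 y := by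
      intro y hy
      unfold sl
      rw [hab _ hq.2.1 y hy, hab _ hq.2.2 y hy, sum_mul s _ (G (q.2.1, y, q.1)),
        sum_mul s _ (G (q.2.2, y, q.1)), sum_mul_sum]
    rw [avg_congr e1, avg_sum]
    exact sum_congr rfl fun i _ => avg_sum _ _ _
  rw [h1]
  refine (n2_sum_le s Q _).trans ((sum_le_sum fun i _ => n2_sum_le s Q _).trans ?_)
  rw [sq, sum_mul_sum]
  refine sum_le_sum fun i _ => sum_le_sum fun j _ => ?_
  rw [hr, hr, ← Real.sqrt_mul (n2_nonneg _ _)]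
  exact Real.le_sqrt_of_sq_le (cr_sq_le A B C G (b i) (b j))

/-! ### the levels -/

/-- the part of a gauge between `16 ^ j θ` and `16 ^ (j + 1) θ` -/
def lev (θ : ℝ) (a : ℤ → ℤ → ℝ) (j : ℤ) (x y : ℤ) : ℝ :=
  if a x y ≠ 0 ∧ Int.log 16 (|a x y| / θ) = j then a x y else 0

theorem abs_lev_le {θ : ℝ} (hθ : 0 < θ) (a : ℤ → ℤ → ℝ) (j x y : ℤ) :
    |lev θ a j x y| ≤ 16 * (16 ^ j * θ) := by
  unfold lev
  split_ifs with h
  · have h1 : |a x y| / θ < ((16 : ℕ) : ℝ) ^ (Int.log 16 (|a x y| / θ) + 1) :=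
      Int.lt_zpow_succ_log_self (by norm_num) _
    rw [h.2, zpow_add_one₀ (by norm_num), div_lt_iff₀ hθ] at h1
    push_cast at h1
    linarith
  · rw [abs_zero]; positivity

theorem lev_sq_le (θ : ℝ) (a : ℤ → ℤ → ℝ) (j x y : ℤ) : lev θ a j x y ^ 2 ≤ a x y ^ 2 := by
  unfold lev
  split_ifs with h
  · exact le_rfl
  · rw [zero_pow two_ne_zero]; positivity

theorem lev_sq_le' {θ : ℝ} (hθ : 0 < θ) (a : ℤ → ℤ → ℝ) (j x y : ℤ) :
    (16 ^ j * θ) ^ 2 * lev θ a j x y ^ 2 ≤ a x y ^ 4 := by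
  unfold lev
  split_ifs with h
  · have h0 : 0 < |a x y| / θ := div_pos (abs_pos.2 h.1) hθ
    have h1 : ((16 : ℕ) : ℝ) ^ Int.log 16 (|a x y| / θ) ≤ |a x y| / θ :=
      Int.zpow_log_le_self (by norm_num) h0
    rw [h.2, le_div_iff₀ hθ] at h1
    push_cast at h1
    have h2 : (16 ^ j * θ) ^ 2 ≤ a x y ^ 2 := by
      rw [← sq_abs (a x y)]
      exact pow_le_pow_left₀ (by positivity) h1 2
    calc _ ≤ a x y ^ 2 * a x y ^ 2 := mul_le_mul_of_nonneg_right h2 (sq_nonneg _)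
      _ = _ := by ring
  · rw [zero_pow two_ne_zero, mul_zero]; positivity

theorem sum_lev {θ : ℝ} (a : ℤ → ℤ → ℝ) (J : Finset ℤ) {x y : ℤ}
    (h : Int.log 16 (|a x y| / θ) ∈ J) : ∑ j ∈ J, lev θ a j x y = a x y := by
  unfold lev
  by_cases h0 : a x y = 0
  · simp [h0]
  · simp [h0, h]

/-- the weights of the levels -/
def wj (j : ℤ) : ℝ := if j ≤ 0 then 2 ^ j else (1 / 4) ^ j

theorem wj_nonneg (j : ℤ) : 0 ≤ wj j := by
  unfold wj; split_ifs <;> positivity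

theorem sum_wj_Icc (N : ℕ) :
    ∑ j ∈ Icc (-(N : ℤ)) N, wj j = 7 / 3 - (1 / 2) ^ N - (1 / 4) ^ N / 3 := by
  induction N with
  | zero => simp [wj]; norm_num
  | succ N ih =>
    have e1 : Icc (-((N + 1 : ℕ) : ℤ)) ((N + 1 : ℕ) : ℤ) =
        insert (-((N : ℤ) + 1)) (insert ((N : ℤ) + 1) (Icc (-(N : ℤ)) N)) := by
      ext j
      simp only [mem_Icc, mem_insert]
      push_cast
      omega
    rw [e1, sum_insert, sum_insert, ih]
    · have h1 : wj (-((N : ℤ) + 1)) = (1 / 2) ^ (N + 1) := by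
        unfold wj
        rw [if_pos (by omega), zpow_neg, ← Nat.cast_succ, zpow_natCast, one_div, inv_pow]
      have h2 : wj ((N : ℤ) + 1) = (1 / 4) ^ (N + 1) := by
        unfold wj
        rw [if_neg (by omega), ← Nat.cast_succ, zpow_natCast]
      rw [h1, h2, pow_succ, pow_succ]
      ring
    · simp only [mem_Icc]; omega
    · simp only [mem_Icc, mem_insert]; omega

theorem sum_wj_le (J : Finset ℤ) : ∑ j ∈ J, wj j ≤ 7 / 3 := by
  set N := J.sup Int.natAbs with hN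
  have h1 : J ⊆ Icc (-(N : ℤ)) N := by
    intro j hj
    have h2 : j.natAbs ≤ N := Finset.le_sup (f := Int.natAbs) hj
    rw [mem_Icc]
    omega
  refine (sum_le_sum_of_subset_of_nonneg h1 fun _ _ _ => wj_nonneg _).trans ?_
  rw [sum_wj_Icc]
  have h3 : (0 : ℝ) ≤ (1 / 2) ^ N := by positivity
  have h4 : (0 : ℝ) ≤ (1 / 4) ^ N := by positivity
  linarith

theorem sqrt_sqrt_le {x y : ℝ} (hy : 0 ≤ y) (h : x ≤ y ^ 4) : √√x ≤ y := by
  refine Real.sqrt_le_iff.2 ⟨hy, Real.sqrt_le_iff.2 ⟨by positivity, ?_⟩⟩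
  calc x ≤ y ^ 4 := h
    _ = (y ^ 2) ^ 2 := by ring

/-- **The fourth moment for all gauges from the bounded gauges.** -/
theorem mo4_pair {A B C : Finset ℤ} {G : ℤ × ℤ × ℤ → ℝ} {k : ℝ} (hk0 : 0 ≤ k)
    (hk : ∀ (a : ℤ → ℤ → ℝ) (h : ℝ), 0 ≤ h → (∀ x ∈ A, ∀ y ∈ B, |a x y| ≤ h) →
      mo4 A B C a G ≤ k * (h * n2 (A ×ˢ B) (fun r => a r.1 r.2) ^ 3)) (a : ℤ → ℤ → ℝ) :
    mo4 A B C a G ≤ 480 * (k * (n2 (A ×ˢ B) (fun r => a r.1 r.2) ^ 2 *
      n4 (A ×ˢ B) (fun r => a r.1 r.2) ^ 2)) := by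
  classical
  set N2 := n2 (A ×ˢ B) (fun r => a r.1 r.2) with hN2
  set N4 := n4 (A ×ˢ B) (fun r => a r.1 r.2) with hN4
  have hN20 : 0 ≤ N2 := n2_nonneg _ _
  have hN24 : N2 ≤ N4 := n2_le_n4 _ _
  rcases hN20.eq_or_lt with h0 | hpos
  · -- the gauge vanishes on the box
    have hz : ∀ x ∈ A, ∀ y ∈ B, |a x y| ≤ 0 := by
      intro x hx y hy
      have h1 : avg (A ×ˢ B) (fun r : ℤ × ℤ => a r.1 r.2 ^ 2) = 0 := by
        rw [← n2_sq, ← hN2, ← h0]; ring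
      have hc : (0 : ℝ) < ((A ×ˢ B).card : ℝ) := by
        exact_mod_cast card_pos.2 ⟨(x, y), mem_product.2 ⟨hx, hy⟩⟩
      unfold avg at h1
      have h2 : ∑ r ∈ A ×ˢ B, a r.1 r.2 ^ 2 = 0 := by
        rcases mul_eq_zero.1 h1 with h | h
        · exact absurd h (inv_ne_zero hc.ne')
        · exact h
      have h3 := (sum_eq_zero_iff_of_nonneg fun r _ => sq_nonneg (a r.1 r.2)).1 h2 (x, y)
        (mem_product.2 ⟨hx, hy⟩)
      have h4 : a x y = 0 := by simpa using h3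
      rw [h4, abs_zero]
    refine (hk a 0 le_rfl hz).trans ?_
    rw [zero_mul, mul_zero]
    positivity
  have hN4pos : 0 < N4 := hpos.trans_le hN24
  set θ : ℝ := N4 ^ 2 / N2 with hθdef
  have hθ : 0 < θ := by positivity
  set J : Finset ℤ := (A ×ˢ B).image fun r => Int.log 16 (|a r.1 r.2| / θ) with hJ
  -- one level
  have hn1 : ∀ j, n2 (A ×ˢ B) (fun r => lev θ a j r.1 r.2) ≤ N2 := by
    intro j
    exact Real.sqrt_le_sqrt (avg_mono fun r _ => lev_sq_le θ a j r.1 r.2)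
  have hn2 : ∀ j : ℤ, 16 ^ j * n2 (A ×ˢ B) (fun r => lev θ a j r.1 r.2) ≤ N2 := by
    intro j
    have h1 : (16 ^ j * θ * n2 (A ×ˢ B) (fun r => lev θ a j r.1 r.2)) ^ 2 ≤ (N4 ^ 2) ^ 2 := by
      have e1 : (N4 ^ 2) ^ 2 = avg (A ×ˢ B) fun r : ℤ × ℤ => a r.1 r.2 ^ 4 := by
        rw [← n4_four, ← hN4]; ring
      rw [mul_pow, n2_sq, e1, ← avg_mul_left]
      exact avg_mono fun r _ => lev_sq_le' hθ a j r.1 r.2
    have h2 := (pow_le_pow_iff_left₀ (mul_nonneg (by positivity) (n2_nonneg _ _)) (by positivity)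
      two_ne_zero).1 h1
    have e2 : 16 ^ j * θ * n2 (A ×ˢ B) (fun r => lev θ a j r.1 r.2) =
        (N4 ^ 2 / N2) * (16 ^ j * n2 (A ×ˢ B) (fun r => lev θ a j r.1 r.2)) := by
      rw [hθdef]; ring
    rw [e2, div_mul_eq_mul_div, div_le_iff₀ hpos] at h2
    exact le_of_mul_le_mul_left h2 (by positivity)
  set S : ℝ := √√(16 * (k * (N2 ^ 2 * N4 ^ 2))) with hS
  have hS0 : 0 ≤ S := Real.sqrt_nonneg _
  have hS4 : S ^ 4 = 16 * (k * (N2 ^ 2 * N4 ^ 2)) := by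
    rw [show S ^ 4 = (S ^ 2) ^ 2 by ring, hS, Real.sq_sqrt (Real.sqrt_nonneg _),
      Real.sq_sqrt (by positivity)]
  have hlev : ∀ j, √√(mo4 A B C (lev θ a j) G) ≤ S * wj j := by
    intro j
    refine sqrt_sqrt_le (mul_nonneg hS0 (wj_nonneg j)) ?_
    have h1 := hk (lev θ a j) (16 * (16 ^ j * θ)) (by positivity)
      (fun x _ y _ => abs_lev_le hθ a j x y)
    refine h1.trans ?_
    set m := n2 (A ×ˢ B) (fun r => lev θ a j r.1 r.2) with hm
    have hm0 : 0 ≤ m := n2_nonneg _ _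
    have a1 : m ≤ N2 := hn1 j
    have a2 : 16 ^ j * m ≤ N2 := hn2 j
    rw [mul_pow, hS4]
    have e0 : θ * N2 ^ 3 = N2 ^ 2 * N4 ^ 2 := by
      rw [hθdef]; field_simp
    unfold wj
    split_ifs with hj
    · -- low levels
      have e1 : ((2 : ℝ) ^ j) ^ 4 = 16 ^ j := by
        rw [← zpow_natCast, ← zpow_mul, mul_comm, zpow_mul]; norm_num
      rw [e1]
      have h2 : m ^ 3 ≤ N2 ^ 3 := pow_le_pow_left₀ hm0 a1 3
      calc k * (16 * (16 ^ j * θ) * m ^ 3) ≤ k * (16 * (16 ^ j * θ) * N2 ^ 3) := by gcongr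
        _ = 16 * (k * (θ * N2 ^ 3)) * 16 ^ j := by ring
        _ = _ := by rw [e0]
    · -- high levels
      have e1 : (((1 : ℝ) / 4) ^ j) ^ 4 * (16 ^ j) ^ 2 = 1 := by
        rw [← zpow_natCast, ← zpow_natCast, ← zpow_mul, ← zpow_mul, mul_comm j, mul_comm j,
          zpow_mul, zpow_mul, ← mul_zpow]
        norm_num
      have h2 : (16 ^ j * m) ^ 3 ≤ N2 ^ 3 := pow_le_pow_left₀ (by positivity) a2 3
      have hj16 : (0 : ℝ) < 16 ^ j := by positivity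
      calc k * (16 * (16 ^ j * θ) * m ^ 3) =
          (k * (16 * θ) * (16 ^ j * m) ^ 3) * ((((1 : ℝ) / 4) ^ j) ^ 4 * (16 ^ j) ^ 2) *
            ((16 ^ j) ^ 2)⁻¹ := by
            rw [e1]; field_simp
        _ = (k * (16 * θ) * (16 ^ j * m) ^ 3) * (((1 : ℝ) / 4) ^ j) ^ 4 := by
            field_simp
        _ ≤ (k * (16 * θ) * N2 ^ 3) * (((1 : ℝ) / 4) ^ j) ^ 4 := by gcongr
        _ = 16 * (k * (θ * N2 ^ 3)) * (((1 : ℝ) / 4) ^ j) ^ 4 := by ring
        _ = _ := by rw [e0]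
  have hsum : √√(mo4 A B C a G) ≤ S * (7 / 3) := by
    refine (mo4_sum_le J A B C G a (lev θ a) fun x hx y hy => (sum_lev a J ?_).symm).trans ?_
    · exact mem_image.2 ⟨(x, y), mem_product.2 ⟨hx, hy⟩, rfl⟩
    · refine (sum_le_sum fun j _ => hlev j).trans ?_
      rw [← mul_sum]
      exact mul_le_mul_of_nonneg_left (sum_wj_le J) hS0
  have hmo : 0 ≤ mo4 A B C a G := mo4_nonneg ..
  have h4 : mo4 A B C a G = (√√(mo4 A B C a G)) ^ 4 := by
    rw [show (√√(mo4 A B C a G)) ^ 4 = ((√√(mo4 A B C a G)) ^ 2) ^ 2 by ring,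
      Real.sq_sqrt (Real.sqrt_nonneg _), Real.sq_sqrt hmo]
  rw [h4]
  refine (pow_le_pow_left₀ (Real.sqrt_nonneg _) hsum 4).trans ?_
  rw [mul_pow, hS4]
  have : 0 ≤ k * (N2 ^ 2 * N4 ^ 2) := by positivity
  nlinarith

end

end Vale.Agent.P141.H573
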