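import Vale.Agent.P141.H573.MomP
import Vale.Agent.P141.H834.CntP

/-!
# P141, scale-invariant version: permutations of the three variables of a box

`UnifP δ A B C G` (uniformity on a box with the pair weight) and `LineB e A B C G` (line averages)
are invariant under the permutations of the three variables; `G` has to be relabelled.

* `_213` : box `B × A × C`, `(y, x, z) ↦ G (x, y, z)`
* `_132` : box `A × C × B`, `(x, z, y) ↦ G (x, y, z)`
* `_231` : box `B × C × A`, `(y, z, x) ↦ G (x, y, z)`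
* `_312` : box `C × A × B`, `(z, x, y) ↦ G (x, y, z)`
* `_321` : box `C × B × A`, `(z, y, x) ↦ G (x, y, z)`

`mo4_transpose`: the fourth moment of a gauge is that of the transposed gauge.
-/

namespace Vale.Agent.P141.H573

open Finset
open Vale.Agent.P141.PL.H315 (avg avg_nonneg atm Tri e12 e13 e23)
open Vale.Agent.P141.H550 Vale.Agent.P141.H769 Vale.Agent.P141.H922 Vale.Agent.P141.H834

noncomputable section

theorem avg_swap (A B : Finset ℤ) (f : ℤ × ℤ → ℝ) :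
    avg (A ×ˢ B) f = avg (B ×ˢ A) fun q => f (q.2, q.1) := by
  rw [avg_prod, avg_prod]
  exact avg_comm A B fun x y => f (x, y)

theorem n2_swap (A B : Finset ℤ) (f : ℤ × ℤ → ℝ) :
    n2 (A ×ˢ B) f = n2 (B ×ˢ A) fun q => f (q.2, q.1) := by
  unfold n2
  rw [avg_swap A B]

theorem n4_swap (A B : Finset ℤ) (f : ℤ × ℤ → ℝ) :
    n4 (A ×ˢ B) f = n4 (B ×ˢ A) fun q => f (q.2, q.1) := by
  unfold n4
  rw [avg_swap A B]

theorem nN_swap (A B : Finset ℤ) (f : ℤ × ℤ → ℝ) :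
    nN (A ×ˢ B) f = nN (B ×ˢ A) fun q => f (q.2, q.1) := by
  unfold nN
  rw [n2_swap A B, n4_swap A B]

/-- the transposed gauge -/
def tr (a : ℤ → ℤ → ℝ) (y x : ℤ) : ℝ := a x y

theorem n2_tr (A B : Finset ℤ) (a : ℤ → ℤ → ℝ) : n2 (B ×ˢ A) (gf (tr a)) = n2 (A ×ˢ B) (gf a) :=
  (n2_swap A B (gf a)).symm

theorem n4_tr (A B : Finset ℤ) (a : ℤ → ℤ → ℝ) : n4 (B ×ˢ A) (gf (tr a)) = n4 (A ×ˢ B) (gf a) :=
  (n4_swap A B (gf a)).symm

theorem nN_tr (A B : Finset ℤ) (a : ℤ → ℤ → ℝ) : nN (B ×ˢ A) (gf (tr a)) = nN (A ×ˢ B) (gf a) :=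
  (nN_swap A B (gf a)).symm

/-- averages over a box: the last two variables -/
theorem avg3_swap23 (A B C : Finset ℤ) (f : ℤ × ℤ × ℤ → ℝ) :
    avg (A ×ˢ B ×ˢ C) f = avg (A ×ˢ C ×ˢ B) fun q => f (q.1, q.2.2, q.2.1) := by
  rw [avg_prod, avg_prod]
  exact avg_congr fun x _ => avg_swap B C fun q => f (x, q.1, q.2)

/-- averages over a box: the first two variables -/
theorem avg3_swap12 (A B C : Finset ℤ) (f : ℤ × ℤ × ℤ → ℝ) :
    avg (A ×ˢ B ×ˢ C) f = avg (B ×ˢ A ×ˢ C) fun q => f (q.2.1, q.1, q.2.2) := by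
  rw [avg_prod, avg_prod]
  have e1 : (avg A fun x => avg (B ×ˢ C) fun y => f (x, y)) =
      avg A fun x => avg B fun y => avg C fun z => f (x, y, z) :=
    avg_congr fun x _ => avg_prod B C fun q => f (x, q)
  have e2 : (avg B fun y => avg (A ×ˢ C) fun q => f (q.1, y, q.2)) =
      avg B fun y => avg A fun x => avg C fun z => f (x, y, z) :=
    avg_congr fun y _ => avg_prod A C fun q => f (q.1, y, q.2)
  rw [e1, e2]
  exact avg_comm A B fun x y => avg C fun z => f (x, y, z)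

variable {δ e : ℝ} {A B C : Finset ℤ} {G : ℤ × ℤ × ℤ → ℝ}

theorem unifP_132 (h : UnifP δ A B C G) : UnifP δ A C B fun q => G (q.1, q.2.2, q.2.1) := by
  intro u
  have h1 := h (u.2.1, u.1, fun q => u.2.2 (q.2, q.1))
  have e1 : (avg (A ×ˢ C ×ˢ B) fun q => G (q.1, q.2.2, q.2.1) * atm u q) =
      avg (A ×ˢ B ×ˢ C) fun q => G q * atm (u.2.1, u.1, fun q => u.2.2 (q.2, q.1)) q := by
    rw [avg3_swap23 A B C]
    refine avg_congr fun q _ => ?_
    simp only [atm, e12, e13, e23]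
    ring
  rw [e1]
  refine h1.trans (le_of_eq ?_)
  rw [n2_swap C B, nN_swap C B]
  ring

theorem unifP_213 (h : UnifP δ A B C G) : UnifP δ B A C fun q => G (q.2.1, q.1, q.2.2) := by
  intro u
  have h1 := h (fun q => u.1 (q.2, q.1), u.2.2, u.2.1)
  have e1 : (avg (B ×ˢ A ×ˢ C) fun q => G (q.2.1, q.1, q.2.2) * atm u q) =
      avg (A ×ˢ B ×ˢ C) fun q => G q * atm (fun q => u.1 (q.2, q.1), u.2.2, u.2.1) q := by
    rw [avg3_swap12 A B C]
    refine avg_congr fun q _ => ?_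
    simp only [atm, e12, e13, e23]
    ring
  rw [e1]
  refine h1.trans (le_of_eq ?_)
  rw [n2_swap B A, nN_swap B A]
  ring

theorem unifP_231 (h : UnifP δ A B C G) : UnifP δ B C A fun q => G (q.2.2, q.1, q.2.1) :=
  unifP_132 (unifP_213 h)

theorem unifP_312 (h : UnifP δ A B C G) : UnifP δ C A B fun q => G (q.2.1, q.2.2, q.1) :=
  unifP_213 (unifP_132 h)

theorem unifP_321 (h : UnifP δ A B C G) : UnifP δ C B A fun q => G (q.2.2, q.2.1, q.1) :=
  unifP_213 (unifP_231 h)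

theorem lineB_132 (h : LineB e A B C G) : LineB e A C B fun q => G (q.1, q.2.2, q.2.1) where
  l1 y hy z hz := h.l1 z hz y hy
  l2 x hx z hz := h.l3 x hx z hz
  l3 x hx y hy := h.l2 x hx y hy

theorem lineB_213 (h : LineB e A B C G) : LineB e B A C fun q => G (q.2.1, q.1, q.2.2) where
  l1 y hy z hz := h.l2 y hy z hz
  l2 x hx z hz := h.l1 x hx z hz
  l3 x hx y hy := h.l3 y hy x hx

theorem lineB_231 (h : LineB e A B C G) : LineB e B C A fun q => G (q.2.2, q.1, q.2.1) :=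
  lineB_132 (lineB_213 h)

theorem lineB_312 (h : LineB e A B C G) : LineB e C A B fun q => G (q.2.1, q.2.2, q.1) :=
  lineB_213 (lineB_132 h)

theorem lineB_321 (h : LineB e A B C G) : LineB e C B A fun q => G (q.2.2, q.2.1, q.1) :=
  lineB_213 (lineB_231 h)

/-- rows and columns have the same fourth moment -/
theorem n2_cr_eq_cl (A B C : Finset ℤ) (G : ℤ × ℤ × ℤ → ℝ) (a : ℤ → ℤ → ℝ) :
    n2 (C ×ˢ A ×ˢ A) (cr B G a a) = n2 (C ×ˢ B ×ˢ B) (cl A G a) := by
  have h1 : n2 (C ×ˢ A ×ˢ A) (cr B G a a) ^ 2 = n2 (C ×ˢ B ×ˢ B) (cl A G a) ^ 2 := by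
    rw [n2_sq, n2_sq, avg_prod, avg_prod]
    refine avg_congr fun z _ => ?_
    rw [avg_prod, avg_prod]
    have h2 := cross_swap A B (sl a G z) (sl a G z)
    refine h2.trans ?_
    refine avg_congr fun y _ => avg_congr fun y' _ => ?_
    show _ = (cl A G a (z, y, y')) ^ 2
    unfold cl
    ring
  exact (pow_left_inj₀ (n2_nonneg _ _) (n2_nonneg _ _) two_ne_zero).1 h1

/-- the fourth moment of the transposed gauge -/
theorem mo4_transpose (A B C : Finset ℤ) (G : ℤ × ℤ × ℤ → ℝ) (a : ℤ → ℤ → ℝ) :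
    mo4 A B C a G = mo4 B A C (tr a) fun q => G (q.2.1, q.1, q.2.2) := by
  rw [mo4_eq, mo4_eq, n2_cr_eq_cl]
  rfl

end

end Vale.Agent.P141.H573
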